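import Vale.Agent.P277.H884.G.SeqG

/-!
# P277, (K): the orders of the local equations of the exceptional hypersurfaces along lifts of wedges
-/

open scoped Manifold ContDiff Topology
open Vale.Agent.P272.K Vale.Agent.P285.H281.FD Vale.Agent.P267.H175 Set Filter Metric

noncomputable section

namespace Vale.Agent.P277.H335.KK

open Vale.Agent.P277 Vale.Agent.P277.T2 Vale.Agent.P277.H335 Vale.Agent.P277.H615

variable {Y : Type} [TopologicalSpace Y] [ChartedSpace (Cm 4) Y]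

/-- `b` is the order of the divisor `∑ l, a l • G l` along `γ₀`, at generic points of `{w 0 = 0}` near
`w₁`. -/
def OrdG {r : ℕ} (G : Fin r → Set Y) (a : Fin r → ℝ) (γ₀ : Cm 4 → Y) (w₁ : Cm 4) (b : ℝ) : Prop :=
  ∃ (ζ : Fin r → Y → ℂ) (μ : Fin r → ℕ) (A : Fin r → Cm 4 → ℂ),
    (∀ l, IsLEq (G l) (γ₀ w₁) (ζ l)) ∧ (∀ l, AnalyticAt ℂ (A l) w₁) ∧
    (∀ l, ∃ᶠ w in 𝓝 w₁, w 0 = 0 ∧ A l w ≠ 0) ∧
    (∀ l, ∀ᶠ w in 𝓝 w₁, ζ l (γ₀ w) = w 0 ^ μ l * A l w) ∧ b = ∑ l, a l * μ l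

/-- Wedges of `X` lift to `Y`; the functions `T e` have orders `q e` along the wedge, and the order of
`∑ l, a l • G l` along the lift is `≤ ∑ e, ρ e * q e`, and `<` if the wedge is centred in `S`. -/
def ChainK {k r : ℕ} (N : Fin k → Bd Y) (X : CSp) (L : Fin k → Bd X.pt) (O : Set Y) (v : Y → X.pt)
    (T : ∀ e, (L e).ι → (N e).ι → Y → ℂ) (ρ : Fin k → ℝ) (S : Set X.pt) (G : Fin r → Set Y)
    (a : Fin r → ℝ) : Prop :=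
  ∀ (W : Set (Cm 4)) (w₀ : Cm 4) (γ' : Cm 4 → X.pt) (i : ∀ e, (L e).ι), IsOpen W → w₀ ∈ W →
    w₀ 0 = 0 → (∀ w ∈ W, HolAt X γ' w) → W ⊆ closure {w | w ∈ W ∧ γ' w ∈ v '' O} →
    (∀ w ∈ W, ∀ e, γ' w ∈ (L e).U (i e)) →
    ∃ w₁ ∈ W, w₁ 0 = 0 ∧ ∃ (W₁ : Set (Cm 4)) (γ₀ : Cm 4 → Y) (ch : Chart 4 Y)
      (c : ∀ e, (N e).ι) (q : Fin k → ℚ), IsOpen W₁ ∧ w₁ ∈ W₁ ∧ W₁ ⊆ W ∧
      (∀ w ∈ W₁, ContinuousAt γ₀ w ∧ At ch (γ₀ w) ∧ AnalyticAt ℂ (fun w => ch (γ₀ w)) w ∧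
        ∀ e, γ₀ w ∈ (N e).U (c e)) ∧
      (∀ w ∈ W₁, γ' w ∈ v '' O → γ₀ w ∈ O) ∧ (∀ w ∈ W₁, γ₀ w ∈ O → v (γ₀ w) = γ' w) ∧
      (∀ e, HasOrd {w | γ₀ w ∈ O} w₁ (fun w => T e (i e) (c e) (γ₀ w)) (q e)) ∧
      ∃ b, OrdG G a γ₀ w₁ b ∧ b ≤ ∑ e, ρ e * q e ∧
        ((∀ w ∈ W, w 0 = 0 → γ' w ∈ S) → b < ∑ e, ρ e * q e)

section

variable {k r : ℕ} {V X Z X' : CSp} {vV : Y → V.pt} {D : Set Y} {N : Fin k → Bd Y}
  {L : Fin k → Bd X.pt} {L' : Fin k → Bd X'.pt} {c c' : Fin k → ℕ} {O : Set Y}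
  {v : Y → X.pt} {P Q : Fin k → ℕ} {T : ∀ e, (L e).ι → (N e).ι → Y → ℂ} {ρ : Fin k → ℝ}
  {S : Set X.pt} {G : Fin r → Set Y} {g : Fin r → ℝ} {f : X.pt → Z.pt} {f' : X'.pt → Z.pt}
  {p q : Fin k → ℕ} {s : ∀ e, (L e).ι → (L' e).ι → Z.pt → ℂ} {a : Fin k → ℤ}

/-- The step: from `X` to `X'`. -/
theorem ChainK.step (hk : 1 ≤ k)
    (h : H884.N.Tw1 vV D N X L c O v P Q T) (hch : ChainK N X L O v T (fun e => ρ e / Q e) S G g)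
    (hf : FlipD f f' L L' p q s a) {d : ℕ} (hd : 1 ≤ d)
    (hda : ∀ e, (a e : ℝ) ≤ d * (ρ e / (c e * p e)) ∧ d * (ρ e / (c e * p e)) ≤ a e + 1)
    {b : ∀ e, X.pt → (L e).ι} (hb : ∀ e x, x ∈ (L e).U (b e x)) :
    ChainK N X' L' {y | y ∈ O ∧ f (v y) ∉ Amin f} (fun y => hf.small'.sec (f (v y)))
      (fun e => stT v f (P e) (p e) (T e) (s e) (b e)) (fun e => ρ e / (Q e * p e : ℕ))
      (f' ⁻¹' Amin f) G g := by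
  intro W w₀ γ' j hW hw₀ hw₀0 hγ' hdd hj
  set O' : Set Y := {y | y ∈ O ∧ f (v y) ∉ Amin f} with hO'
  set v' : Y → X'.pt := fun y => hf.small'.sec (f (v y)) with hv'
  have hf'v' : ∀ y, f' (v' y) = f (v y) := fun y => hf.small'.sec_eq _
  have hd' : W ⊆ closure {w | w ∈ W ∧ f' (γ' w) ∉ Amin f} := by
    refine hdd.trans (closure_mono ?_)
    rintro w ⟨hw, y, hy, hyw⟩
    refine ⟨hw, ?_⟩
    rw [← hyw]
    exact (hf'v' y).symm ▸ hy.2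
  obtain ⟨r, gg, hr, hs, hg, ⟨w₁, hw₁, hw₁0, hgw₁⟩, hgood⟩ := hf.down hk hW hw₀ hw₀0 hγ' hd'
  obtain ⟨W₁, γ, hW₁, hw₁W₁, hW₁W, hγ, hord⟩ := hgood w₁ hw₁ hw₁0 hgw₁
  choose i hi using fun e => (hf.lb e).cover (γ w₁)
  obtain ⟨σ, hσ, hsum⟩ := hord i j hi (hj w₁ (hW₁W hw₁W₁))
  have hev : ∀ᶠ w in 𝓝 w₁, w ∈ W₁ ∧ (∀ e, γ w ∈ (L e).U (i e)) ∧ ∀ e, w 0 = 0 →
      HasOrd {w | f (γ w) ∉ Amin f} w (fun w => s e (i e) (j e) (f (γ w))) (σ e) := by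
    refine (hW₁.eventually_mem hw₁W₁).and (Filter.Eventually.and ?_ ?_)
    · rw [eventually_all]
      exact fun e => (hγ w₁ hw₁W₁).1.1.eventually_mem (((hf.lb e).isOpen (i e)).mem_nhds (hi e))
    · rw [eventually_all]
      exact fun e => (hσ e).eventually hw₁0
  obtain ⟨W₂, hW₂s, hW₂, hw₁W₂⟩ := _root_.mem_nhds_iff.1 hev
  have key : ∀ w ∈ W₁, ∀ y ∈ O', v' y = γ' w → γ w = v y := by
    intro w hw y hy hyw
    have h1 : f (γ w) = f (v y) := by rw [(hγ w hw).2, ← hyw, hf'v']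
    exact hf.small.inj _ _ hy.2 h1
  have hd₁ : W₂ ⊆ closure {w | w ∈ W₂ ∧ γ w ∈ v '' O} := by
    refine (subset_closure_of_open (D := {w | γ' w ∈ v' '' O'}) hW₂
      (fun w hw => hW₁W (hW₂s hw).1) hdd).trans (closure_mono ?_)
    rintro w ⟨hw, y, hy, hyw⟩
    exact ⟨hw, y, hy.1, (key w (hW₂s hw).1 y hy hyw).symm⟩
  obtain ⟨w₂, hw₂W, hw₂0, W₃, γ₀, ch, c₀, x, hW₃, hw₂, hW₃W, hγ₀, hO1, hO2, hT, b₀, hb₀, hx0⟩ :=
    hch W₂ w₁ γ i hW₂ hw₁W₂ hw₁0 (fun w hw => (hγ w (hW₂s hw).1).1) hd₁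
      (fun w hw => (hW₂s hw).2.1)
  have hO2' : ∀ w ∈ W₃, γ₀ w ∈ O' → v' (γ₀ w) = γ' w := by
    intro w hw hy
    have h1 : v (γ₀ w) = γ w := hO2 w hw hy.1
    have h2 := (hW₂s (hW₃W hw)).1
    refine hf.small'.inj _ _ ?_ ?_
    · rw [← (hγ w h2).2, ← h1]; exact hy.2
    · rw [hf'v', h1, (hγ w h2).2]
  have hD' : ∀ᶠ w in 𝓝 w₂, w ∈ {w | γ₀ w ∈ O'} →
      w ∈ {w | γ₀ w ∈ O} ∧ w ∈ {w | f (γ w) ∉ Amin f} := by
    filter_upwards [hW₃.mem_nhds hw₂] with w hw hwO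
    refine ⟨hwO.1, ?_⟩
    show f (γ w) ∉ Amin f
    rw [← hO2 w hw hwO.1]; exact hwO.2
  have hsne : ∀ e, ∀ᶠ w in 𝓝 w₂, w ∈ {w | γ₀ w ∈ O'} → w 0 ≠ 0 →
      s e (i e) (j e) (f (γ w)) ≠ 0 := by
    intro e
    filter_upwards [hD', hW₃.mem_nhds hw₂] with w hw hwW hwO _
    have h2 := hW₂s (hW₃W hwW)
    exact ((hf.iso e).holo (γ w) (γ' w) (i e) (j e) (hw hwO).2 (hγ w h2.1).2.symm (h2.2.1 e)
      (hj w (hW₁W h2.1) e)).2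
  refine ⟨w₂, hW₁W (hW₂s hw₂W).1, hw₂0, W₃, γ₀, ch, c₀, fun e => x e * p e - σ e * P e, hW₃, hw₂,
    fun w hw => hW₁W (hW₂s (hW₃W hw)).1, hγ₀, ?_, hO2', ?_, ?_⟩
  · rintro w hw ⟨y, hy, hyw⟩
    have h1 : γ w = v y := key w (hW₂s (hW₃W hw)).1 y hy hyw
    have h2 : γ₀ w ∈ O := hO1 w hw ⟨y, hy.1, h1.symm⟩
    have h3 : γ₀ w = y := (h.tw ⟨0, hk⟩).emb.inj h2 hy.1 (by rw [hO2 w hw h2, h1])
    rw [h3]; exact hy
  · intro e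
    have h1 := ((hT e).pow (p e)).mono (hD'.mono fun w hw hwO => (hw hwO).1)
    have h2 := (((hW₂s hw₂W).2.2 e hw₂0).mono (hD'.mono fun w hw hwO => (hw hwO).2)).pow (P e)
    have h3 := h1.mul hw₂0 (h2.inv ((hsne e).mono fun w hw m1 m2 => pow_ne_zero _ (hw m1 m2)))
    rw [← sub_eq_add_neg] at h3
    refine h3.congr ?_
    filter_upwards [hW₃.mem_nhds hw₂] with w hw hwO _
    have h4 : v (γ₀ w) = γ w := hO2 w hw hwO.1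
    have h5 := hW₂s (hW₃W hw)
    have h6 := stT_eq' (h.tw e).iso (h.tw e).lb hf.small' (IsLBx.pow (hf.lb e) (p e))
      (IsLBx.pow (hf.lb' e) (q e)) (hf.iso e) (hb e) hwO.1 hwO.2 (a₁ := i e) (b := j e)
      (c := c₀ e) (by rw [h4]; exact h5.2.1 e)
      (by
        have h7 : hf.small'.sec (f (v (γ₀ w))) = γ' w := hO2' w hw hwO
        rw [h7]; exact hj w (hW₁W h5.1) e) ((hγ₀ w hw).2.2.2 e)
    rw [h6]
    show T e (i e) (c₀ e) (γ₀ w) ^ p e / s e (i e) (j e) (f (v (γ₀ w))) ^ P e = _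
    rw [h4, div_eq_mul_inv]
  · have h1 := sum_step (c := c) hd (fun e => (h.tw e).hP) (fun e => (h.tw e).hQ) hf.hp h.mult ρ
      x σ
    have h2 := hsum (fun e => d * (ρ e / (c e * p e))) hda
    have hd0 : (0 : ℝ) < d := by exact_mod_cast hd
    rw [h1]
    refine ⟨b₀, hb₀, ?_, fun hC => ?_⟩
    · have h3 := div_nonpos_of_nonpos_of_nonneg h2.1 hd0.le
      have h4 := hx0.1
      linarith
    · have h3 := div_neg_of_neg_of_pos (h2.2 fun w hw hw0 => hC w hw hw0) hd0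
      have h4 := hx0.1
      linarith

end

section

variable [T2Space Y] [CompactSpace Y] [IsManifold 𝓘(ℂ, Cm 4) ω Y] {k r : ℕ} {X : CSp}

/-- lifting of wedges to the resolution -/
theorem chainK_base (hL0 : StL0) {W : CSp} (hX : IsNormal 4 X)
    {v : Y → W.pt} {p : W.pt → X.pt} {P : Bd W.pt} {G : Fin r → Set Y} (hR : T2.IsRes v p P G)
    {N : Fin k → Bd Y} (hNo : ∀ e c, IsOpen ((N e).U c)) (hNc : ∀ e y, ∃ c, y ∈ (N e).U c)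
    {L : Fin k → Bd X.pt} {c : Fin k → ℕ} {n : Fin k → Fin r → ℤ}
    {t : ∀ e, (L e).ι → (N e).ι → Y → ℂ}
    (ht : IsCmpV (fun y => p (v y)) L (fun e => (N e).pow (c e)) G n t) {ρ : Fin k → ℝ} :
    ChainK N X L (⋃ l, G l)ᶜ (fun y => p (v y)) t (fun e => ρ e / c e) ∅ G
      (fun l => ∑ e, ρ e * n e l / c e) := by
  intro B w₀ γ' i hB hw₀ hw₀0 hγ' hd hi
  obtain ⟨w₁, hw₁, hw₁0, B₁, γ₀, hB₁, hw₁', hB₁B, hγ₀⟩ :=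
    hL0 Y W X hX r v p P G hR B hB w₀ hw₀ hw₀0 γ' hγ' hd
  choose j hj using fun e => hNc e (γ₀ w₁)
  set ch : Chart 4 Y := chartAt (Cm 4) (γ₀ w₁) with hch
  have hat : At ch (γ₀ w₁) := H19.at_chartAt _
  have heat : ch ∈ atlas (Cm 4) Y := chart_mem_atlas _ _
  have hjo : IsOpen {y : Y | ∀ e, y ∈ (N e).U (j e)} := by
    have h1 : {y : Y | ∀ e, y ∈ (N e).U (j e)} = ⋂ e, (N e).U (j e) := by ext y; simp
    rw [h1]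
    exact isOpen_iInter_of_finite fun e => hNo e _
  have hW₁ : IsOpen (B₁ ∩ γ₀ ⁻¹' (ch.source ∩ {y : Y | ∀ e, y ∈ (N e).U (j e)})) := by
    have h1 : ContinuousOn γ₀ B₁ := fun w hw => (hγ₀ w hw).1.continuousWithinAt
    exact h1.isOpen_inter_preimage hB₁ (ch.open_source.inter hjo)
  have hpre : ∀ w ∈ B₁, γ' w ∈ (fun y => p (v y)) '' (⋃ l, G l)ᶜ → γ₀ w ∈ (⋃ l, G l)ᶜ := by
    rintro w hw ⟨y, hy, hyw⟩
    have h1 : p (v (γ₀ w)) = p (v y) := by rw [(hγ₀ w hw).2.1]; exact hyw.symm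
    have h2 : v (γ₀ w) = v y := hR.inj y _ hy h1
    rw [hR.emb.inj (mem_univ _) (mem_univ _) h2]; exact hy
  -- the orders of the local equations
  obtain ⟨ζ, hζ, hu⟩ := ht.div (γ₀ w₁)
  have hγc : ContinuousAt γ₀ w₁ := (hγ₀ w₁ hw₁').1
  have hγa := (hγ₀ w₁ hw₁').2.2 ch hat
  have hζa : ∀ l, AnalyticAt ℂ (fun w => ζ l (γ₀ w)) w₁ := fun l =>
    analyticAt_comp_chart hγc hat hγa ((hζ l).2 ch hat).1
  have hζne : ∀ l, ∀ᶠ w in 𝓝 w₁, w ∈ {w | γ₀ w ∈ (⋃ l, G l)ᶜ} → w 0 ≠ 0 → ζ l (γ₀ w) ≠ 0 := by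
    intro l
    filter_upwards [hγc.eventually (hζ l).1] with w hw hwO _ h0
    exact hwO (mem_iUnion.2 ⟨l, hw.1 h0⟩)
  have hex : ∀ U ∈ 𝓝 w₁, ∃ w ∈ U, w ∈ B₁ ∧ γ₀ w ∈ (⋃ l, G l)ᶜ := by
    intro U hU
    obtain ⟨w, h1, h2⟩ := mem_closure_iff_nhds.1 (hd (hB₁B hw₁')) (U ∩ B₁)
      (inter_mem hU (hB₁.mem_nhds hw₁'))
    exact ⟨w, h1.1, h1.2, hpre w h1.2 h2.2⟩
  have hζnz : ∀ l, ¬ ∀ᶠ w in 𝓝 w₁, ζ l (γ₀ w) = 0 := by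
    intro l hz
    obtain ⟨w, ⟨h1, h2⟩, -, h3⟩ := hex _ (hz.and (hγc.eventually (hζ l).1))
    exact h3 (mem_iUnion.2 ⟨l, h2.1 h1⟩)
  choose μ A hA hμA hAne using fun l => H19.exists_max_pow (hζa l) hw₁0 (hζnz l)
  have hAf : ∀ l, ∃ᶠ w in 𝓝 w₁, w 0 = 0 ∧ A l w ≠ 0 := by
    intro l
    have h1 := hAne l
    rw [Filter.not_eventually] at h1
    refine h1.mono fun w hw => ?_
    push Not at hw
    exact hw
  have hμ : ∀ l, HasOrd {w | γ₀ w ∈ (⋃ l, G l)ᶜ} w₁ (fun w => ζ l (γ₀ w)) (μ l : ℚ) := by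
    intro l
    refine ⟨1, μ l, A l, fun _ => 1, le_rfl, by simp, hA l, analyticAt_const, hAf l,
      freq_one hw₁0 continuousAt_const one_ne_zero, ?_⟩
    filter_upwards [hμA l] with w g1 _ _
    rw [one_mul, pow_one, g1, zpow_natCast]
  have hvU : ∀ e, p (v (γ₀ w₁)) ∈ (L e).U (i e) := fun e => by
    rw [(hγ₀ w₁ hw₁').2.1]; exact hi w₁ hw₁ e
  refine ⟨w₁, hw₁, hw₁0, _, γ₀, ch, j, fun e => ∑ l, μ l * n e l, hW₁,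
    ⟨hw₁', mem_chart_source _ _, hj⟩, inter_subset_left.trans hB₁B, ?_, ?_, ?_, ?_, ?_⟩
  · rintro w ⟨hw, hws, hwj⟩
    obtain ⟨h1, h2, h3⟩ := hγ₀ w hw
    exact ⟨h1, ⟨heat, hws⟩, h3 ch ⟨heat, hws⟩, hwj⟩
  · rintro w ⟨hw, -, -⟩ hwO
    exact hpre w hw hwO
  · rintro w ⟨hw, -, -⟩ -
    exact (hγ₀ w hw).2.1
  · intro e
    obtain ⟨u, hu0, hua, htu⟩ := hu e (i e) (j e) (hvU e) (hj e)
    have h1 : HasOrd {w | γ₀ w ∈ (⋃ l, G l)ᶜ} w₁ (fun w => u (γ₀ w)) 0 :=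
      HasOrd.of_unit hw₁0 (analyticAt_comp_chart hγc hat hγa (hua ch hat)) hu0
    have h2 := HasOrd.prod hw₁0 Finset.univ fun l => (hμ l).zpow (hζne l) (n e l)
    have h3 := h1.mul hw₁0 h2
    rw [zero_add] at h3
    refine h3.congr ?_
    filter_upwards [hγc.eventually htu] with w hw hwO _
    exact hw hwO
  · have h1 : ∑ e, ρ e / c e * ((∑ l, (μ l : ℚ) * n e l : ℚ) : ℝ) =
        ∑ l, (∑ e, ρ e * n e l / c e) * μ l := by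
      push_cast
      simp only [Finset.mul_sum, Finset.sum_mul]
      rw [Finset.sum_comm]
      exact Finset.sum_congr rfl fun l _ => Finset.sum_congr rfl fun e _ => by ring
    refine ⟨_, ⟨ζ, μ, A, hζ, hA, hAf, hμA, rfl⟩, h1.ge, fun h => (h w₀ hw₀ hw₀0).elim⟩

end

end Vale.Agent.P277.H335.KK
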