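import Vale.Agent.P277.H335.JacB

/-!
# P277, (K): a wedge of `Y` dominating a smooth hypersurface, with the smallest possible Jacobian, is
open
-/

open scoped Manifold ContDiff Topology
open Vale.Agent.P272.K Vale.Agent.P285.H281.FD Vale.Agent.P267.H175 Set Metric Filter

noncomputable section

namespace Vale.Agent.P277.H335.KK

open Vale.Agent.P277 Vale.Agent.P277.T2 Vale.Agent.P277.H335 Vale.Agent.P277.H615
open Vale.Agent.P277.H335.RR

/-- the map `(z 0, z') ↦ (z 0 ^ g, z')` is open at the points of `{z 0 = 0}` -/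
theorem nhds_le_map_pow {g : ℕ} (hg : 1 ≤ g) {y : Cm 4} (hy : y 0 = 0) :
    𝓝 y ≤ map (fun z : Cm 4 => (Fin.cons (z 0 ^ g) fun i : Fin 3 => z i.succ : Cm 4)) (𝓝 y) := by
  intro s hs
  rw [Filter.mem_map] at hs
  obtain ⟨ε, hε, hball⟩ := Metric.mem_nhds_iff.1 hs
  rw [Metric.mem_nhds_iff]
  refine ⟨min ε (ε ^ g), lt_min hε (pow_pos hε g), fun z hz => ?_⟩
  obtain ⟨t, ht⟩ := IsAlgClosed.exists_pow_nat_eq (z 0) (show 0 < g by omega)
  rw [mem_ball, dist_pi_lt_iff (lt_min hε (pow_pos hε g))] at hz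
  have h0 : ‖t‖ < ε := by
    have h1 := hz 0
    rw [hy, dist_zero_right, ← ht, norm_pow] at h1
    exact lt_of_pow_lt_pow_left₀ g hε.le (h1.trans_le (min_le_right _ _))
  have h2 : (Fin.cons t fun i : Fin 3 => z i.succ : Cm 4) ∈ ball y ε := by
    rw [mem_ball, dist_pi_lt_iff hε]
    intro i
    refine Fin.cases ?_ (fun i => ?_) i
    · rw [Fin.cons_zero, hy, dist_zero_right]; exact h0
    · rw [Fin.cons_succ]; exact (hz i.succ).trans_le (min_le_left _ _)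
  have h3 := hball h2
  have h4 : (Fin.cons ((Fin.cons t fun i : Fin 3 => z i.succ : Cm 4) 0 ^ g)
      fun i : Fin 3 => (Fin.cons t fun i : Fin 3 => z i.succ : Cm 4) i.succ : Cm 4) = z := by
    funext i
    refine Fin.cases ?_ (fun i => ?_) i
    · rw [Fin.cons_zero, Fin.cons_zero, ht]
    · rw [Fin.cons_succ, Fin.cons_succ]
  rw [mem_preimage, h4] at h3
  exact h3

/-- roots of units -/
theorem exists_root {u : Cm 4 → ℂ} {w : Cm 4} (hu : AnalyticAt ℂ u w) (hu0 : u w ≠ 0) {g : ℕ}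
    (hg : 1 ≤ g) : ∃ ρ : Cm 4 → ℂ, AnalyticAt ℂ ρ w ∧ ρ w ≠ 0 ∧ ∀ᶠ w' in 𝓝 w, ρ w' ^ g = u w' := by
  obtain ⟨c, hc⟩ := IsAlgClosed.exists_pow_nat_eq (u w) (show 0 < g by omega)
  have hc0 : c ≠ 0 := by
    rintro rfl
    rw [zero_pow (by omega)] at hc
    exact hu0 hc.symm
  have hg0 : (g : ℂ) ≠ 0 := Nat.cast_ne_zero.2 (by omega)
  have h1 : AnalyticAt ℂ (fun w' => u w' / u w) w := hu.div analyticAt_const hu0
  have h2 : AnalyticAt ℂ (fun w' => Complex.log (u w' / u w)) w :=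
    h1.clog (by rw [div_self hu0]; exact Complex.one_mem_slitPlane)
  have h3 : AnalyticAt ℂ (fun w' => c * Complex.exp (Complex.log (u w' / u w) / g)) w :=
    analyticAt_const.mul (h2.div analyticAt_const hg0).cexp
  refine ⟨_, h3, mul_ne_zero hc0 (Complex.exp_ne_zero _), ?_⟩
  filter_upwards [hu.continuousAt.eventually_ne hu0] with w' hw'
  rw [mul_pow, hc, ← Complex.exp_nat_mul, mul_div_cancel₀ _ hg0,
    Complex.exp_log (div_ne_zero hw' hu0), mul_div_cancel₀ _ hu0]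

/-- replacing the first coordinate -/
theorem exists_cons_inv' {F : Cm 4 → Cm 4} {a : Cm 4 → ℂ} {w₂ : Cm 4} (hF : AnalyticAt ℂ F w₂)
    (ha : AnalyticAt ℂ a w₂) {c : ℂ} (hc : c ≠ 0) (had : ∀ v, fderiv ℂ a w₂ v = c * v 0)
    (hdet : (Matrix.of fun i j : Fin 3 => fderiv ℂ F w₂ (Pi.single j.succ 1) i.succ).det ≠ 0) :
    ∃ θ : OpenPartialHomeomorph (Cm 4) (Cm 4),
      (θ : Cm 4 → Cm 4) = (fun w => Fin.cons (a w) fun i : Fin 3 => F w i.succ) ∧
      w₂ ∈ θ.source := by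
  set K : Cm 4 → Cm 4 := fun w => Fin.cons (a w) fun i : Fin 3 => F w i.succ with hK
  have hKa : AnalyticAt ℂ K w₂ := by
    rw [analyticAt_pi_iff]
    intro j
    refine Fin.cases ?_ (fun j => ?_) j
    · exact ha
    · simp only [Fin.cons_succ]
      exact (analyticAt_pi_iff.1 hF) j.succ
  have hKd : ∀ (v : Cm 4) (j : Fin 4), fderiv ℂ K w₂ v j = fderiv ℂ (fun w => K w j) w₂ v := by
    intro v j
    rw [fderiv_apply hKa.differentiableAt]
    rfl
  have hFd : ∀ (v : Cm 4) (j : Fin 4), fderiv ℂ F w₂ v j = fderiv ℂ (fun w => F w j) w₂ v := by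
    intro v j
    rw [fderiv_apply hF.differentiableAt]
    rfl
  have hinj : Function.Injective (fderiv ℂ K w₂) := by
    rw [injective_iff_map_eq_zero]
    intro v hv
    have h0 : v 0 = 0 := by
      have h1 := congrFun hv 0
      rw [hKd v 0] at h1
      have h2 : (fun w => K w 0) = a := by
        funext w; simp [hK]
      rw [h2, had, Pi.zero_apply] at h1
      exact (mul_eq_zero.1 h1).resolve_left hc
    have hs : ∀ i : Fin 3, fderiv ℂ F w₂ v i.succ = 0 := by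
      intro i
      have h1 := congrFun hv i.succ
      rw [hKd v i.succ] at h1
      have h2 : (fun w => K w i.succ) = fun w : Cm 4 => F w i.succ := by
        funext w; simp [hK]
      rw [h2, ← hFd] at h1
      exact h1
    have hv2 : v = ∑ j : Fin 3, v j.succ • (Pi.single j.succ (1 : ℂ) : Cm 4) := by
      have h2 : v = ∑ j, v j • (Pi.single j (1 : ℂ) : Cm 4) := by
        funext k
        simp [Finset.sum_apply, Pi.single_apply]
      conv_lhs => rw [h2]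
      rw [Fin.sum_univ_succ, h0, zero_smul, zero_add]
    have hmul : (Matrix.of fun i j : Fin 3 => fderiv ℂ F w₂ (Pi.single j.succ 1) i.succ).mulVec
        (fun j : Fin 3 => v j.succ) = 0 := by
      funext i
      have h1 := hs i
      rw [hv2, map_sum] at h1
      simp only [map_smul, Finset.sum_apply, Pi.smul_apply, smul_eq_mul] at h1
      simp only [Matrix.mulVec, dotProduct, Matrix.of_apply, Pi.zero_apply]
      rw [← h1]
      exact Finset.sum_congr rfl fun j _ => mul_comm _ _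
    have hz := Matrix.eq_zero_of_mulVec_eq_zero hdet hmul
    funext j
    refine Fin.cases ?_ (fun j => ?_) j
    · exact h0
    · exact congrFun hz j
  obtain ⟨θ, hθ, hθs, -, -⟩ := H73.exists_localInv hKa hinj
  exact ⟨θ, hθ, hθs⟩

variable {Y : Type} [TopologicalSpace Y] [ChartedSpace (Cm 4) Y]

/-- A wedge of `Y` centred in a smooth hypersurface `{ζ = 0}` with Jacobian of order `J < g`, where
`g` is the order of `ζ`, is open. -/
theorem nhds_le_map_of_jac {ζ : Y → ℂ} {γ : Cm 4 → Y} {w₂ : Cm 4} (h0 : w₂ 0 = 0)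
    (hγ : ContinuousAt γ w₂) {e : Chart 4 Y} (he : At e (γ w₂))
    (hγa : AnalyticAt ℂ (fun w => e (γ w)) w₂)
    (hζ : AnalyticAt ℂ (fun z => ζ (e.symm z)) (e (γ w₂)))
    (hζd : fderiv ℂ (fun z => ζ (e.symm z)) (e (γ w₂)) ≠ 0) {g J : ℕ} (hg : 1 ≤ g)
    {u u' : Cm 4 → ℂ} (hu : AnalyticAt ℂ u w₂) (hu0 : u w₂ ≠ 0) (hu' : AnalyticAt ℂ u' w₂)
    (hu'0 : u' w₂ ≠ 0) (hs : ∀ᶠ w in 𝓝 w₂, ζ (γ w) = w 0 ^ g * u w)
    (hJ : ∀ᶠ w in 𝓝 w₂, (fderiv ℂ (fun w => e (γ w)) w).det = w 0 ^ J * u' w) (hlt : ¬ g ≤ J) :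
    𝓝 (γ w₂) ≤ map γ (𝓝 w₂) := by
  obtain ⟨Ψ, h1, h2, h3, h4⟩ := HY.exists_straight hζ hζd
  set F : Cm 4 → Cm 4 := fun w => Ψ (e (γ w)) with hF
  have hFa : AnalyticAt ℂ F w₂ :=
    AnalyticAt.fun_comp (g := Ψ) (f := fun w => e (γ w)) (h2 _ h1) hγa
  have hsrc : ∀ᶠ w in 𝓝 w₂, γ w ∈ e.source := hγ.eventually_mem (e.open_source.mem_nhds he.2)
  have hsrc2 : ∀ᶠ w in 𝓝 w₂, e (γ w) ∈ Ψ.source :=
    hγa.continuousAt.eventually_mem (Ψ.open_source.mem_nhds h1)
  have hF0 : ∀ᶠ w in 𝓝 w₂, F w 0 = w 0 ^ g * u w := by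
    filter_upwards [hs, hsrc] with w g1 g2
    simp only [hF]
    rw [h4, e.left_inv g2, g1]
  have hdetΨ : AnalyticAt ℂ (fun w => (fderiv ℂ Ψ (e (γ w))).det) w₂ :=
    AnalyticAt.fun_comp (g := fun z => (fderiv ℂ Ψ z).det) (f := fun w => e (γ w))
      (H19.analyticAt_det (h2 _ h1)) hγa
  have hFJ : ∀ᶠ w in 𝓝 w₂, (fderiv ℂ F w).det =
      w 0 ^ J * ((fderiv ℂ Ψ (e (γ w))).det * u' w) := by
    filter_upwards [hJ, hsrc2, hγa.eventually_analyticAt] with w g1 g2 g3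
    have h5 := H19.det_fderiv_comp (F := fun w => e (γ w)) (G := Ψ) (w := w)
      (h2 _ g2).differentiableAt g3.differentiableAt
    simp only [hF]
    rw [h5, g1]
    ring
  have hne : (fderiv ℂ Ψ (e (γ w₂))).det * u' w₂ ≠ 0 :=
    mul_ne_zero (det_ne_zero_of_inv h1 (h2 _ h1) (h3 _ (Ψ.map_source h1))) hu'0
  obtain ⟨k1, k2, -⟩ := H29.stFac F w₂ hFa h0 g J hg u (fun w => (fderiv ℂ Ψ (e (γ w))).det * u' w)
    hu hu0 (hdetΨ.mul hu') hne hF0 hFJ
  obtain ⟨ρ, hρ, hρ0, hρg⟩ := exists_root hu hu0 hg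
  have hproj : AnalyticAt ℂ (fun w : Cm 4 => w 0) w₂ :=
    (ContinuousLinearMap.proj (R := ℂ) (φ := fun _ : Fin 4 => ℂ) 0).analyticAt w₂
  have hprojd : fderiv ℂ (fun w : Cm 4 => w 0) w₂ =
      ContinuousLinearMap.proj (R := ℂ) (φ := fun _ : Fin 4 => ℂ) 0 :=
    (ContinuousLinearMap.proj (R := ℂ) (φ := fun _ : Fin 4 => ℂ) 0).fderiv
  have haa : AnalyticAt ℂ (fun w : Cm 4 => w 0 * ρ w) w₂ := hproj.mul hρ
  have had : ∀ v, fderiv ℂ (fun w : Cm 4 => w 0 * ρ w) w₂ v = ρ w₂ * v 0 := by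
    intro v
    rw [fderiv_fun_mul hproj.differentiableAt hρ.differentiableAt, hprojd]
    simp only [ContinuousLinearMap.add_apply, ContinuousLinearMap.smul_apply,
      ContinuousLinearMap.proj_apply, smul_eq_mul]
    rw [h0]
    ring
  obtain ⟨θ, hθ, hθs⟩ := exists_cons_inv' hFa haa hρ0 had (k2 (by omega))
  have hFw0 : F w₂ 0 = 0 := by
    rw [hF0.self_of_nhds, h0, zero_pow (by omega), zero_mul]
  have hθw : θ w₂ = F w₂ := by
    rw [hθ]
    funext j
    refine Fin.cases ?_ (fun j => ?_) j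
    · simp [h0, hFw0]
    · simp
  -- the map `F` is open at `w₂`
  have c1 : map θ (𝓝 w₂) = 𝓝 (F w₂) := by rw [θ.map_nhds_eq hθs, hθw]
  have c2 : 𝓝 (F w₂) ≤ map F (𝓝 w₂) := by
    refine (nhds_le_map_pow hg hFw0).trans ?_
    rw [← c1, Filter.map_map]
    refine le_of_eq (Filter.map_congr ?_)
    filter_upwards [hF0, hρg] with w g1 g2
    funext j
    refine Fin.cases ?_ (fun j => ?_) j
    · rw [Function.comp_apply, Fin.cons_zero, hθ]
      show (w 0 * ρ w) ^ g = F w 0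
      rw [mul_pow, g2, g1]
    · rw [Function.comp_apply, Fin.cons_succ, hθ]
      rfl
  -- back to `Y`
  have hΦs : γ w₂ ∈ (e.trans Ψ).source := by
    rw [OpenPartialHomeomorph.trans_source]
    exact ⟨he.2, h1⟩
  have hΦ : ∀ y, (e.trans Ψ) y = Ψ (e y) := fun y => rfl
  have c3 : 𝓝 (γ w₂) = map (e.trans Ψ).symm (𝓝 (F w₂)) := by
    have h5 := (e.trans Ψ).symm.map_nhds_eq ((e.trans Ψ).map_source hΦs)
    rw [(e.trans Ψ).left_inv hΦs] at h5
    exact h5.symm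
  rw [c3]
  refine (Filter.map_mono c2).trans ?_
  rw [Filter.map_map]
  refine le_of_eq (Filter.map_congr ?_)
  filter_upwards [hsrc, hsrc2] with w g1 g2
  exact (e.trans Ψ).left_inv (by
    rw [OpenPartialHomeomorph.trans_source]
    exact ⟨g1, g2⟩)

end Vale.Agent.P277.H335.KK
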