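import Vale.Agent.P277.H335.K.ChainK

/-!
# P277, (K): the chains of the spaces `X j`
-/

open scoped Manifold ContDiff Topology
open Vale.Agent.P272.K Vale.Agent.P285.H281.FD Vale.Agent.P267.H175 Set Filter Metric

noncomputable section

namespace Vale.Agent.P277.H335.KK

open Vale.Agent.P277 Vale.Agent.P277.T2 Vale.Agent.P277.H335 Vale.Agent.P277.H615

variable {Y : Type} [TopologicalSpace Y] [ChartedSpace (Cm 4) Y] [T2Space Y] [CompactSpace Y]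
  [IsManifold 𝓘(ℂ, Cm 4) ω Y]

/-- the chains on all `X (j + 1)` -/
theorem exists_chainK (hL0 : StL0) {k s : ℕ} (hk : 1 ≤ k + s)
    {M : Fin (k + s) → Bd Y} {m : Fin (k + s) → ℕ} {ρ : Fin (k + s) → ℝ}
    {sg : ∀ i : Fin s, (M (Fin.natAdd k i)).ι → Y → ℂ} {W : CSp} {X Z : ℕ → CSp} {r : ℕ}
    {v₀ : Y → W.pt} {p₀ : W.pt → (X 0).pt} {P₀ : Bd W.pt} {G : Fin r → Set Y}
    {f : ∀ j, (X j).pt → (Z j).pt} {f' : ∀ j, (X (j + 1)).pt → (Z j).pt}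
    {L : ∀ j, Fin (k + s) → Bd (X j).pt} {c : ℕ → Fin (k + s) → ℕ}
    {σ : ∀ j, ∀ i : Fin s, (L j (Fin.natAdd k i)).ι → (X j).pt → ℂ}
    {n : Fin (k + s) → Fin r → ℤ}
    {t : ∀ e, (L 0 e).ι → (((Bd.can 4 Y).pow (m e)).mul (M e)).ι → Y → ℂ}
    {Bad : Set Y} {O : ℕ → Set Y} {v : ∀ j, Y → (X j).pt} {P Q : ℕ → Fin (k + s) → ℕ}
    {T : ∀ j e, (L j e).ι → (((Bd.can 4 Y).pow (m e)).mul (M e)).ι → Y → ℂ}
    (hX0 : IsNormal 4 (X 0)) (hlb : ∀ e, IsLB 4 (M e)) (hR : T2.IsRes v₀ p₀ P₀ G)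
    (ht : T2.IsCmpV (fun y => p₀ (v₀ y)) (L 0)
      (fun e => (((Bd.can 4 Y).pow (m e)).mul (M e)).pow (c 0 e)) G n t)
    (h : H884.G.TwSeqG ρ sg v₀ p₀ G f f' L c σ t Bad O v P Q T) (j : ℕ) :
    ChainK (fun e => ((Bd.can 4 Y).pow (m e)).mul (M e)) (X (j + 1)) (L (j + 1)) (O (j + 1))
      (v (j + 1)) (T (j + 1)) (fun e => ρ e / Q (j + 1) e) (f' j ⁻¹' Amin (f j)) G
      (fun l => ∑ e, ρ e * n e l / c 0 e) := by
  have hN : ∀ e, CtBd (((Bd.can 4 Y).pow (m e)).mul (M e)) := fun e => ctBd (hlb e) (m e)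
  have hstep : ∀ j, (∃ S, ChainK (fun e => ((Bd.can 4 Y).pow (m e)).mul (M e)) (X j) (L j) (O j)
      (v j) (T j) (fun e => ρ e / Q j e) S G (fun l => ∑ e, ρ e * n e l / c 0 e)) →
      ChainK (fun e => ((Bd.can 4 Y).pow (m e)).mul (M e)) (X (j + 1)) (L (j + 1)) (O (j + 1))
        (v (j + 1)) (T (j + 1)) (fun e => ρ e / Q (j + 1) e) (f' j ⁻¹' Amin (f j)) G
        (fun l => ∑ e, ρ e * n e l / c 0 e) := by
    rintro j ⟨S, hS⟩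
    obtain ⟨p, q, u, a, hf, d, b, hd, hcpq, hda, hb, hOj, hvj, hPj, hQj, hTj⟩ := h.step j
    have h1 := hS.step hk (h.tw1 j) hf hd hda hb
    rw [hOj, hvj, hQj, hTj]
    exact h1
  induction j with
  | zero =>
    refine hstep 0 ⟨∅, ?_⟩
    have h1 := chainK_base hL0 hX0 hR (fun e => (hN e).isOpen) (fun e => (hN e).cover) ht (ρ := ρ)
    rw [h.O0, h.v0, h.Q0, h.T0]
    exact h1
  | succ j ih => exact hstep (j + 1) ⟨_, ih⟩

end Vale.Agent.P277.H335.KK
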