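import Vale.Agent.P277.H335.K.RegG
import Vale.Agent.P277.H335.K.LiftK
import Vale.Agent.P277.H335.K.TowerK

/-!
# P277, (K): (REGK)
-/

open scoped Manifold ContDiff Topology
open Vale.Agent.P272.K Vale.Agent.P285.H281.FD Vale.Agent.P267.H175 Set Metric Filter

noncomputable section

namespace Vale.Agent.P277.H335.KK

open Vale.Agent.P277 Vale.Agent.P277.T2 Vale.Agent.P277.H335 Vale.Agent.P277.H615
open Vale.Agent.P277.H335.RR

/-- (REGK) -/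
theorem stRegK : T3.StRegK := by
  intro Y _ _ _ _ _ χ k s M m ρ H _ _ _ _ _ _ ι sg W X Z r v₀ p P G f f' A L c σ n t h I K I' hI
    hI' hK1 hK2 hK3 hN j
  have hsum : ∑ e : Fin k, ρ (Fin.castAdd s e) * m (Fin.castAdd s e) = 1 := by
    have h1 := h.sum
    rw [Fin.sum_univ_add] at h1
    simpa only [h.m0, Nat.cast_zero, mul_zero, Finset.sum_const_zero, add_zero] using h1
  have hk : 1 ≤ k := by
    rcases Nat.eq_zero_or_pos k with rfl | h1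
    · simp at hsum
    · exact h1
  have hn : ∀ l ∉ K, 0 ≤ ∑ e, ρ e * n e l / c 0 e ∨ G l ⊆ T3.bad ι G I I' := by
    intro l hlK
    by_cases hl : l ∈ I
    · exact Or.inr fun y hy => Or.inl (mem_iUnion₂.2 ⟨l, hl, hy⟩)
    · exact Or.inl (hI l hl hlK)
  have hn' : ∀ l, 0 ≤ ∑ e, ρ e * n e l / c 0 e ∨ G l ⊆ (univ : Set Y) := fun l =>
    Or.inr (subset_univ _)
  have hbc : IsClosed (T3.bad ι G I I') := T3.isClosed_bad h.res.closed fun i => (h.bd i).sub.cont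
  obtain ⟨O, v, P', Q', T, hT⟩ := H884.G.exists_twSeqG H884.stL0 (by omega) h.lb h.res h.c1 h.cmp
    h.corr hn' h.flip
  obtain ⟨pp, qq, s', a, hf, d, b, -, -, -, -, -, -, -, -, -⟩ := hT.step j
  have hTw := hT.tw j
  have hch := exists_chainK H884.stL0 (by omega) (h.flip 0).flip.normal h.lb h.res h.cmp hT j
  have hsub := hT.sub_compl j
  have hdn : ∀ i, range (ι i) ⊆ closure (range (ι i) ∩ O (j + 1)) := by
    intro i
    have hne : Nonempty Y := ⟨ι i (Classical.arbitrary (H i))⟩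
    exact (hyp_dense h.res.emb h.res.hyp h.res.closed (isHyp_of_bd (h.lb _) (h.bd i))
      (isPreconnected_range (h.bd i).sub.cont)
      (fun l hl => h.ne i (hl.trans (subset_iUnion G l)))
      (hTw.tw ⟨0, by omega⟩).emb.isOpen (hTw.tw ⟨0, by omega⟩).thin).2.1
  have hS : ∀ i : Fin s, SecRel (L (j + 1) (Fin.natAdd k i))
      (((Bd.can 4 Y).pow (m (Fin.natAdd k i))).mul (M (Fin.natAdd k i))) (O (j + 1)) (v (j + 1))
      (P' (j + 1) (Fin.natAdd k i)) (Q' (j + 1) (Fin.natAdd k i)) (T (j + 1) (Fin.natAdd k i))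
      (fun b y => sg i b.2 y) := by
    intro i
    have h1 := (h.flip (j + 1)).sec i
    refine ⟨fun a x => σ (j + 1) i a x ^ P' (j + 1) (Fin.natAdd k i),
      ⟨fun a x hx ha => hol_pow (h1.holo a x hx ha) _, fun a b x hx ha hb => ?_⟩, ?_⟩
    · show σ (j + 1) i a x ^ P' (j + 1) (Fin.natAdd k i) = (L (j + 1) (Fin.natAdd k i)).g a b x ^
        P' (j + 1) (Fin.natAdd k i) * σ (j + 1) i b x ^ P' (j + 1) (Fin.natAdd k i)
      rw [h1.change a b x hx ha hb, mul_pow]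
    · rintro y hy a ⟨ch, b⟩ ha ⟨hb1, hb2⟩
      rw [mul_comm]
      exact hT.sec (j + 1) i y a ch b hy ha hb1 hb2
  have hlt : ∀ i : Fin s, ρ (Fin.natAdd k i) ≤ 1 ∨ range (ι i) ⊆ T3.bad ι G I I' := by
    intro i
    by_cases hi : i ∈ I'
    · exact Or.inr fun y hy => Or.inr (mem_iUnion₂.2 ⟨i, hi, hy⟩)
    · exact Or.inl (hI' i hi)
  have hlt' : ∀ l ∈ K, ∀ i, Disjoint (G l) (range (ι i)) ∨ range (ι i) ⊆ T3.bad ι G I I' := by
    intro l hl i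
    by_cases hi : i ∈ I'
    · exact Or.inr fun y hy => Or.inr (mem_iUnion₂.2 ⟨i, hi, hy⟩)
    · exact Or.inl (hK3 l hl i hi)
  set Cr := T3.Cor (⋃ l, G l) (fun y => p (v₀ y)) f f' (j + 1) with hCr
  refine regCoreG h.kahler (M := fun e => M (Fin.castAdd s e)) (fun e => h.lb _) h.nef
    (m := fun e => m (Fin.castAdd s e)) h.pos (ρ := fun e => ρ (Fin.castAdd s e))
    (fun e => h.rho _) hsum
    hf.normal' (hTw.tw ⟨0, by omega⟩).emb (hTw.tw ⟨0, by omega⟩).dim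
    (L := fun e => (L (j + 1) (Fin.castAdd s e)).pow (P' (j + 1) (Fin.castAdd s e)))
    (fun e => (hTw.tw _).lb) (Q := fun e => Q' (j + 1) (Fin.castAdd s e))
    (fun e => (hTw.tw _).hQ)
    (T := fun e => T (j + 1) (Fin.castAdd s e)) (fun e => (hTw.tw _).iso)
    (IsAn.preimage (fun x => hf.small'.holMap x) hf.small'.an) hsub
    (Nc := T3.Tot Cr (T3.bad ι G I I') ∪ closure (T3.Val Cr (⋃ l ∈ K, G l)))
    ((H884.G.isClosed_tot _ hbc).union isClosed_closure) (hN j) ?_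
  intro B w₀ φ hB hw₀ h0 hφ hSc hN' hcl
  refine liftV_of_chainK (S := f' j ⁻¹' Amin (f j))
    (Nc := T3.Tot Cr (T3.bad ι G I I') ∪ closure (T3.Val Cr (⋃ l ∈ K, G l)))
    (N := T3.bad ι G I I') (a := fun l => ∑ e, ρ e * n e l / c 0 e) (Ks := K)
    h.lb hTw.tw hTw.lb ?_ hn hK1 hK2 hlt' h.rho hlt h.bd h.disj hdn hS hsub hB hw₀ h0 hφ hSc hN'
    hcl ?_
  · intro W w₀ γ' i hW hw₀ h0 hγ hcl hi hSN
    obtain ⟨w₁, hw₁, hw₁0, W₁, γ₀, ch, cc, q, g1, g2, g3, g4, g5, g6, g7, b₀, g8, -, g9⟩ :=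
      hch W w₀ γ' i hW hw₀ h0 hγ hcl hi
    have hb : ∀ w ∈ W₁, w 0 = 0 → γ₀ w ∉ T3.bad ι G I I' := fun w hw hw0 =>
      H884.G.notMem_of_tot (fun y hy => (cor_iff' hT (j + 1) y _).2 ⟨hy, rfl⟩)
        (subset_closure_of_open g1 g3 hcl) g5 g6 hw (g4 w hw).1 (hγ w (g3 hw)).1
        fun h => (hSN w (g3 hw) hw0).2 (Or.inl h)
    exact ⟨w₁, hw₁, hw₁0, W₁, γ₀, ch, cc, q, g1, g2, g3, g4, g5, g6, g7,
      ⟨b₀, g8, g9 (fun w hw hw0 => (hSN w hw hw0).1)⟩, hb⟩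
  · rintro W₁ γ w₂ hW₁ hw₂ hW₁W hO2 ⟨l, hl, hlG⟩ hopen
    refine Or.inr (subset_closure ⟨γ w₂, mem_iUnion₂.2 ⟨l, hl, hlG⟩, fun U hU => ?_⟩)
    have h1 : γ '' (φ ⁻¹' U ∩ W₁) ∈ 𝓝 (γ w₂) :=
      hopen (image_mem_map (inter_mem ((hφ w₂ (hW₁W hw₂)).1.preimage_mem_nhds hU)
        (hW₁.mem_nhds hw₂)))
    filter_upwards [h1]
    rintro y' ⟨w', ⟨h2, h3⟩, rfl⟩ x' hx'
    obtain ⟨h4, rfl⟩ := (cor_iff' hT (j + 1) _ _).1 hx'
    rw [hO2 w' h3 h4]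
    exact h2

end Vale.Agent.P277.H335.KK
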