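import Vale.Agent.P277.H335.RegB

/-!
# P277, (G): wedges centred in the flipped surfaces have lifts, for arbitrary NQC generalized pairs;
the lifts do not meet the set `N`; coefficients `≤ 1` outside `N`
-/

open scoped Manifold ContDiff Topology
open Vale.Agent.P272.K Vale.Agent.P285.H281.FD Vale.Agent.P267.H175 Set Metric Filter

noncomputable section

namespace Vale.Agent.P277.H335.KK

open Vale.Agent.P277 Vale.Agent.P277.T2 Vale.Agent.P277.H335 Vale.Agent.P277.H615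
open Vale.Agent.P277.H335.RR

variable {Y : Type} [TopologicalSpace Y] [ChartedSpace (Cm 4) Y]

section
variable [IsManifold 𝓘(ℂ, Cm 4) ω Y] {V X : CSp} {k s : ℕ} {vV : Y → V.pt} {D : Set Y}
  {M : Fin (k + s) → Bd Y} {m : Fin (k + s) → ℕ}
  {L : Fin (k + s) → Bd X.pt} {c : Fin (k + s) → ℕ} {O : Set Y} {v : Y → X.pt}
  {P Q : Fin (k + s) → ℕ}
  {T : ∀ e, (L e).ι → (((Bd.can 4 Y).pow (m e)).mul (M e)).ι → Y → ℂ} {ρ : Fin (k + s) → ℝ}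
  {S Nc : Set X.pt} {N : Set Y} {H : Fin s → Type} [∀ i, TopologicalSpace (H i)]
  [∀ i, ChartedSpace (Cm 3) (H i)] {ι : ∀ i, H i → Y}
  {sg : ∀ i : Fin s, (M (Fin.natAdd k i)).ι → Y → ℂ}

/-- wedges centred in `S` have lifts -/
theorem liftV_of_chainG (hM : ∀ e, IsLB 4 (M e))
    (htw : ∀ e, Tw0 vV D (((Bd.can 4 Y).pow (m e)).mul (M e)) X (L e) O v (P e) (Q e) (T e))
    (hlb : ∀ e, IsLBx X (L e))
    (hch : ∀ (W : Set (Cm 4)) (w₀ : Cm 4) (γ' : Cm 4 → X.pt) (i : ∀ e, (L e).ι), IsOpen W →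
      w₀ ∈ W → w₀ 0 = 0 → (∀ w ∈ W, HolAt X γ' w) → W ⊆ closure {w | w ∈ W ∧ γ' w ∈ v '' O} →
      (∀ w ∈ W, ∀ e, γ' w ∈ (L e).U (i e)) → (∀ w ∈ W, w 0 = 0 → γ' w ∈ S ∧ γ' w ∉ Nc) →
      ∃ w₁ ∈ W, w₁ 0 = 0 ∧ ∃ (W₁ : Set (Cm 4)) (γ₀ : Cm 4 → Y) (ch : Chart 4 Y)
        (c : ∀ e, (((Bd.can 4 Y).pow (m e)).mul (M e)).ι) (q : Fin (k + s) → ℚ), IsOpen W₁ ∧
        w₁ ∈ W₁ ∧ W₁ ⊆ W ∧
        (∀ w ∈ W₁, ContinuousAt γ₀ w ∧ At ch (γ₀ w) ∧ AnalyticAt ℂ (fun w => ch (γ₀ w)) w ∧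
          ∀ e, γ₀ w ∈ (((Bd.can 4 Y).pow (m e)).mul (M e)).U (c e)) ∧
        (∀ w ∈ W₁, γ' w ∈ v '' O → γ₀ w ∈ O) ∧ (∀ w ∈ W₁, γ₀ w ∈ O → v (γ₀ w) = γ' w) ∧
        (∀ e, HasOrd {w | γ₀ w ∈ O} w₁ (fun w => T e (i e) (c e) (γ₀ w)) (q e)) ∧
        0 < ∑ e, ρ e / Q e * q e ∧ ∀ w ∈ W₁, w 0 = 0 → γ₀ w ∉ N)
    (hρ : ∀ e, 0 < ρ e)
    (hlt : ∀ i : Fin s, ρ (Fin.natAdd k i) ≤ 1 ∨ range (ι i) ⊆ N)
    (hbd : ∀ i, T3.IsBd (ι i) (M (Fin.natAdd k i)) (sg i))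
    (hdis : Pairwise fun i j => Disjoint (range (ι i)) (range (ι j)))
    (hdn : ∀ i, range (ι i) ⊆ closure (range (ι i) ∩ O))
    (hsec : ∀ i, SecRel (L (Fin.natAdd k i))
      (((Bd.can 4 Y).pow (m (Fin.natAdd k i))).mul (M (Fin.natAdd k i))) O v
      (P (Fin.natAdd k i)) (Q (Fin.natAdd k i)) (T (Fin.natAdd k i)) (fun b y => sg i b.2 y))
    (hSO : S ⊆ (v '' O)ᶜ)
    {W : Set (Cm 4)} {w₀ : Cm 4} {φ : Cm 4 → X.pt} (hW : IsOpen W) (hw₀ : w₀ ∈ W) (h0 : w₀ 0 = 0)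
    (hφ : ∀ w ∈ W, HolAt X φ w) (hS : ∀ w ∈ W, w 0 = 0 → φ w ∈ S)
    (hNc : ∀ w ∈ W, φ w ∉ Nc)
    (hcl : W ⊆ closure {w | w ∈ W ∧ φ w ∈ v '' O}) :
    ∃ w₁ ∈ W, w₁ 0 = 0 ∧ LiftV O v (fun e : Fin k => (L (Fin.castAdd s e)).pow (P (Fin.castAdd s e)))
      (fun e => M (Fin.castAdd s e)) (fun e => m (Fin.castAdd s e)) (fun e => Q (Fin.castAdd s e))
      (fun e => T (Fin.castAdd s e)) (fun e => ρ (Fin.castAdd s e)) φ w₁ := by
  choose i hi using fun e => (hlb e).cover (φ w₀)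
  set W' : Set (Cm 4) := {w | w ∈ W ∧ φ w ∈ ⋂ e, (L e).U (i e)} with hW'
  have hW'o : IsOpen W' := by
    have h1 : ContinuousOn φ W := fun w hw => (hφ w hw).1.continuousWithinAt
    exact h1.isOpen_inter_preimage hW (isOpen_iInter_of_finite fun e => (hlb e).isOpen (i e))
  have hcl' : W' ⊆ closure {w | w ∈ W' ∧ φ w ∈ v '' O} :=
    subset_closure_of_open hW'o (fun w hw => hw.1) hcl
  have hW'i : ∀ w ∈ W', ∀ e, φ w ∈ (L e).U (i e) := fun w hw e => mem_iInter.1 hw.2 e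
  obtain ⟨w₁, hw₁, hw₁0, W₁, γ, ch, cc, q, hW₁, hw₁W, hW₁W, hγ, hO1, hO2, hT, hpos, hN⟩ :=
    hch W' w₀ φ i hW'o ⟨hw₀, mem_iInter.2 hi⟩ h0 (fun w hw => hφ w hw.1) hcl' hW'i
      fun w hw hw0 => ⟨hS w hw.1 hw0, hNc w hw.1⟩
  obtain ⟨g1, g2, g3, g4⟩ := hγ w₁ hw₁W
  have hW₁n := hW₁.mem_nhds hw₁W
  have hord : ∀ e, HasOrd {w | γ w ∈ O} w₁ (fun w => T e (i e) (ch, (cc e).2) (γ w)) (q e) := by
    intro e
    refine hasOrd_change (hM e) (htw e).lb (htw e).iso hw₁0 g1 (φ := φ) ?_ ?_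
      (e := (cc e).1) (g4 e).1 g2 (g4 e).2 g3 (hT e)
    · filter_upwards [hW₁n] with w hw using hW'i w (hW₁W hw) e
    · filter_upwards [hW₁n] with w hw using hO2 w hw
  -- the points of the centre are mapped to the complement of `O`
  have hO3 : ∀ w ∈ W₁, w 0 = 0 → γ w ∉ O := fun w hw hw0 hwO =>
    hSO (hS w (hW₁W hw).1 hw0) ⟨γ w, hwO, hO2 w hw hwO⟩
  -- density
  have hfreq : ∀ w ∈ W₁, ∃ᶠ w' in 𝓝 w, γ w' ∈ O ∧ w' 0 ≠ 0 := by
    intro w hw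
    rw [Filter.frequently_iff]
    intro U hU
    obtain ⟨w', ⟨h1, h2⟩, h3, h4⟩ := mem_closure_iff_nhds.1 (hcl (hW₁W hw).1) _
      (inter_mem hU (hW₁.mem_nhds hw))
    have h5 := hO1 w' h2 h4
    exact ⟨w', h1, h5, fun h6 => hO3 w' h2 h6 h5⟩
  have hsum : ∀ (K : ℕ), 1 ≤ K → ∀ ν : Fin (k + s) → ℤ, (∀ e, (ν e : ℚ) = q e * K) →
      ∑ e, ρ e / Q e * q e = ∑ e : Fin k, ρ (Fin.castAdd s e) * ν (Fin.castAdd s e) /
        (Q (Fin.castAdd s e) * K) + ∑ j : Fin s, ρ (Fin.natAdd k j) * ν (Fin.natAdd k j) /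
        (Q (Fin.natAdd k j) * K) := by
    intro K hK ν hν
    have h1 : ∀ e, ρ e / Q e * q e = ρ e * ν e / (Q e * K) := by
      intro e
      have h2 : (ν e : ℝ) = q e * K := by exact_mod_cast hν e
      have h3 : (K : ℝ) ≠ 0 := by exact_mod_cast (Nat.one_le_iff_ne_zero.1 hK)
      have h4 : (Q e : ℝ) ≠ 0 := by exact_mod_cast (Nat.one_le_iff_ne_zero.1 (htw e).hQ)
      rw [h2]
      field_simp
    rw [Fin.sum_univ_add]
    exact congrArg₂ _ (Finset.sum_congr rfl fun e _ => h1 _) (Finset.sum_congr rfl fun e _ => h1 _)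
  -- the conclusion, from the estimate of the Jacobian
  have fin : ∀ w₂ ∈ W₁, w₂ 0 = 0 → ∀ (K : ℕ) (ν : Fin (k + s) → ℤ) (Φ : Fin (k + s) → Cm 4 → ℂ),
      1 ≤ K → (∀ e, AnalyticAt ℂ (Φ e) w₂) → (∀ e, Φ e w₂ ≠ 0) →
      (∀ e, ∀ᶠ w in 𝓝 w₂, w ∈ {w | γ w ∈ O} → w 0 ≠ 0 →
        T e (i e) (ch, (cc e).2) (γ w) ^ K = w 0 ^ ν e * Φ e w) →
      ∀ (J : ℕ) (C : ℝ), (∀ᶠ w in 𝓝 w₂, ‖(fderiv ℂ (fun w => ch (γ w)) w).det‖ ≤ C * ‖w 0‖ ^ J) →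
      0 < ∑ e : Fin k, ρ (Fin.castAdd s e) * ν (Fin.castAdd s e) /
        (Q (Fin.castAdd s e) * K) + J →
      ∃ w₁ ∈ W, w₁ 0 = 0 ∧ LiftV O v
        (fun e : Fin k => (L (Fin.castAdd s e)).pow (P (Fin.castAdd s e)))
        (fun e => M (Fin.castAdd s e)) (fun e => m (Fin.castAdd s e))
        (fun e => Q (Fin.castAdd s e)) (fun e => T (Fin.castAdd s e))
        (fun e => ρ (Fin.castAdd s e)) φ w₁ := by
    intro w₂ hw₂W hw₂0 K ν Φ hK hΦ hΦ0 hrel J C hC hp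
    obtain ⟨k1, k2, k3, k4⟩ := hγ w₂ hw₂W
    refine ⟨w₂, (hW₁W hw₂W).1, hw₂0, γ, ch, fun e => (cc (Fin.castAdd s e)).2,
      fun e => i (Fin.castAdd s e), K, fun e => ν (Fin.castAdd s e),
      fun e => Φ (Fin.castAdd s e), J, C, hK, k1, k2, fun e => (k4 _).2, k3, ?_,
      fun e => hW'i w₂ (hW₁W hw₂W) _, fun e => ⟨hΦ _, hΦ0 _⟩, fun e => hrel _, hC, hp⟩
    filter_upwards [hW₁.mem_nhds hw₂W] with w hw hwO
    have h6 := hO1 w hw hwO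
    exact ⟨h6, hO2 w hw h6⟩
  have hdetA : AnalyticAt ℂ (fun w => (fderiv ℂ (fun w => ch (γ w)) w).det) w₁ :=
    H19.analyticAt_det g3
  by_cases hdet : ∀ᶠ w in 𝓝 w₁, (fderiv ℂ (fun w => ch (γ w)) w).det = 0
  · -- the Jacobian vanishes identically
    obtain ⟨w₂, ⟨hw₂0, K, hK, hdat⟩, hw₂W, hd2⟩ :=
      ((exists_unit' hw₁0 hord).and_eventually
        ((hW₁.eventually_mem hw₁W).and hdet.eventually_nhds)).exists
    choose ν Φ hν hΦ hΦ0 hrel using hdat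
    obtain ⟨J, hJ⟩ := exists_nat_gt (-(∑ e : Fin k, ρ (Fin.castAdd s e) * ν (Fin.castAdd s e) /
        (Q (Fin.castAdd s e) * K)))
    refine fin w₂ hw₂W hw₂0 K ν Φ hK hΦ hΦ0 hrel J 0 ?_ (by linarith)
    filter_upwards [hd2] with w hw
    rw [hw, norm_zero, zero_mul]
  · obtain ⟨J, A₀, hA₀, hJ, hA₀ne⟩ := H19.exists_max_pow hdetA hw₁0 hdet
    have hfr : ∀ {B : Cm 4 → ℂ}, (¬ ∀ᶠ w in 𝓝 w₁, w 0 = 0 → B w = 0) →
        ∃ᶠ w in 𝓝 w₁, w 0 = 0 ∧ B w ≠ 0 := by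
      intro B hB
      rw [Filter.not_eventually] at hB
      refine hB.mono fun w hw => ?_
      push Not at hw
      exact hw
    -- the sections
    have hsa : ∀ j, AnalyticAt ℂ (fun w => sg j (cc (Fin.natAdd k j)).2 (γ w)) w₁ := fun j =>
      analyticAt_comp_chart g1 g2 g3 ((hbd j).sec.holo _ ch _ g2 (g4 _).2).analyticAt
    have hsne : ∀ j, ¬ ∀ᶠ w in 𝓝 w₁, sg j (cc (Fin.natAdd k j)).2 (γ w) = 0 := by
      intro j hz
      refine hdet ?_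
      filter_upwards [hz.eventually_nhds, hW₁n] with w h1 h2
      obtain ⟨k1, k2, k3, k4⟩ := hγ w h2
      exact det_zero_of_sub (hbd j) (fun μ => (hM _).isOpen μ) k1 k2 k3 (k4 _).2 h1.self_of_nhds h1
    choose g A hA hgA hAne using fun j => H19.exists_max_pow (hsa j) hw₁0 (hsne j)
    have hprod : ∃ᶠ w in 𝓝 w₁, w 0 = 0 ∧ ∏ j, A j w ≠ 0 :=
      (freq_prod hw₁0 Finset.univ hA fun j => hfr (hAne j)).mono fun w hw =>
        ⟨hw.1, Finset.prod_ne_zero_iff.2 hw.2⟩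
    have hCa : AnalyticAt ℂ (fun w => A₀ w * ∏ j, A j w) w₁ :=
      hA₀.mul (Finset.analyticAt_fun_prod Finset.univ fun j _ => hA j)
    have hCf := freq_mul' hw₁0 hA₀ (Finset.analyticAt_fun_prod Finset.univ fun j _ => hA j)
      (hfr hA₀ne) hprod
    have hev : ∀ᶠ w₂ in 𝓝 w₁, w₂ ∈ W₁ ∧ AnalyticAt ℂ A₀ w₂ ∧
        (∀ᶠ w in 𝓝 w₂, (fderiv ℂ (fun w => ch (γ w)) w).det = w 0 ^ J * A₀ w) ∧
        ∀ j, AnalyticAt ℂ (A j) w₂ ∧
          ∀ᶠ w in 𝓝 w₂, sg j (cc (Fin.natAdd k j)).2 (γ w) = w 0 ^ g j * A j w := by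
      refine (hW₁.eventually_mem hw₁W).and (hA₀.eventually_analyticAt.and
        (hJ.eventually_nhds.and ?_))
      rw [eventually_all]
      exact fun j => (hA j).eventually_analyticAt.and (hgA j).eventually_nhds
    obtain ⟨w₂, ⟨hw₂0, hC, K, hK, hdat⟩, hw₂W, hA₀2, hJ2, hA2⟩ :=
      ((exists_unit'' hw₁0 hord hCa hCf).and_eventually hev).exists
    choose ν Φ hν hΦ hΦ0 hrel using hdat
    have hA₀0 : A₀ w₂ ≠ 0 := left_ne_zero_of_mul hC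
    have hA0 : ∀ j, A j w₂ ≠ 0 := fun j =>
      Finset.prod_ne_zero_iff.1 (right_ne_zero_of_mul hC) j (Finset.mem_univ j)
    obtain ⟨k1, k2, k3, k4⟩ := hγ w₂ hw₂W
    have hgJ : ∀ j, g j ≤ J := fun j =>
      order_le_jac (hbd j) (fun μ => (hM _).isOpen μ) (hdn j) hw₂0 k1 k2 k3 (by
        filter_upwards [hW₁.mem_nhds hw₂W] with w hw hw0 using hO3 w hw hw0) (k4 _).2
        (hA2 j).1 (hA0 j) hA₀2 hA₀0 (hA2 j).2 hJ2
    have hνg : ∀ j, ν (Fin.natAdd k j) ≤ Q (Fin.natAdd k j) * K * g j := by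
      intro j
      obtain ⟨h, hh, hrel'⟩ := hsec j
      have hφ2 : HolAt X φ w₂ := hφ w₂ (hW₁W hw₂W).1
      refine ord_le_of_rel (D := {w | γ w ∈ O}) (η := fun w => h (i (Fin.natAdd k j)) (φ w)) hw₂0
        (hfreq w₂ hw₂W) (hΦ (Fin.natAdd k j)).continuousAt
        (hφ2.2 _ (hh.holo _ _ (mem_univ _) (hW'i w₂ (hW₁W hw₂W) _))).continuousAt
        (hA2 j).1.continuousAt (hA0 j) (hrel (Fin.natAdd k j)) ?_
      filter_upwards [hW₁.mem_nhds hw₂W, (hA2 j).2] with w hw h1 hwO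
      obtain ⟨m1, m2, m3, m4⟩ := hγ w hw
      have h2 := hrel' (γ w) hwO (i (Fin.natAdd k j)) (ch, (cc (Fin.natAdd k j)).2)
        (by rw [hO2 w hw hwO]; exact hW'i w (hW₁W hw) _) ⟨m2, (m4 _).2⟩
      rw [hO2 w hw hwO] at h2
      simp only at h2
      rw [h2, h1]
    have hsum1 : ∑ j : Fin s, ρ (Fin.natAdd k j) * ν (Fin.natAdd k j) /
        (Q (Fin.natAdd k j) * K) ≤ ∑ j : Fin s, ρ (Fin.natAdd k j) * g j := by
      refine Finset.sum_le_sum fun j _ => ?_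
      have h1 : (0 : ℝ) < Q (Fin.natAdd k j) * K := by
        have h2 := Nat.mul_pos (htw (Fin.natAdd k j)).hQ hK
        exact_mod_cast h2
      rw [div_le_iff₀ h1]
      have h3 : (ν (Fin.natAdd k j) : ℝ) ≤ Q (Fin.natAdd k j) * K * g j := by
        exact_mod_cast hνg j
      have h4 := mul_le_mul_of_nonneg_left h3 (hρ (Fin.natAdd k j)).le
      linarith
    have hsum2 : ∑ j : Fin s, ρ (Fin.natAdd k j) * g j ≤ J := by
      by_cases hex : ∃ j, 1 ≤ g j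
      · obtain ⟨j, hj⟩ := hex
        have hmem : ∀ j, 1 ≤ g j → γ w₂ ∈ range (ι j) := by
          intro j hj
          refine ((hbd j).zero _ _ (k4 (Fin.natAdd k j)).2).1 ?_
          rw [(hA2 j).2.self_of_nhds, hw₂0, zero_pow (by omega), zero_mul]
        have h1 : ∀ j' ∈ Finset.univ, j' ≠ j → ρ (Fin.natAdd k j') * g j' = 0 := by
          intro j' _ hjj
          have h2 : g j' = 0 := by
            by_contra h3
            exact disjoint_left.1 (hdis hjj) (hmem j' (by omega)) (hmem j hj)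
          rw [h2, Nat.cast_zero, mul_zero]
        rw [Finset.sum_eq_single j h1 fun h => absurd (Finset.mem_univ j) h]
        have h3 : (g j : ℝ) ≤ J := by exact_mod_cast hgJ j
        have h4 : (0 : ℝ) ≤ g j := Nat.cast_nonneg _
        have h5 : ρ (Fin.natAdd k j) ≤ 1 :=
          (hlt j).resolve_right fun h => hN w₂ hw₂W hw₂0 (h (hmem j hj))
        nlinarith
      · push Not at hex
        have h1 : ∀ j, g j = 0 := fun j => by have := hex j; omega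
        simp only [h1, Nat.cast_zero, mul_zero, Finset.sum_const_zero]
        exact Nat.cast_nonneg _
    refine fin w₂ hw₂W hw₂0 K ν Φ hK hΦ hΦ0 hrel J (‖A₀ w₂‖ + 1) ?_ ?_
    · filter_upwards [hJ2, hA₀2.continuousAt.norm.eventually_lt continuousAt_const
        (lt_add_one _)] with w h1 h2
      rw [h1, norm_mul, norm_pow, mul_comm]
      exact mul_le_mul_of_nonneg_right h2.le (by positivity)
    · rw [hsum K hK ν hν] at hpos
      linarith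

end

end Vale.Agent.P277.H335.KK
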