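import Vale.Agent.P277.H335.RegNFin
import Vale.Agent.P277.H335.K.LiftG
import Vale.Agent.P277.H884.G.Tot

/-!
# P277, (G): (REGG)
-/

open scoped Manifold ContDiff Topology
open Vale.Agent.P272.K Vale.Agent.P285.H281.FD Vale.Agent.P267.H175 Set Metric Filter

noncomputable section

namespace Vale.Agent.P277.H335.KK

open Vale.Agent.P277 Vale.Agent.P277.T2 Vale.Agent.P277.H335 Vale.Agent.P277.H615
open Vale.Agent.P277.H335.RR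

/-- (REG core) for wedges outside the closed set `Nc`; only the singular surfaces in `Nc` matter -/
theorem regCoreG {Y : Type} [TopologicalSpace Y] [T2Space Y] [CompactSpace Y]
    [ChartedSpace (Cm 4) Y] [IsManifold 𝓘(ℂ, Cm 4) ω Y]
    {χ : Chart 4 Y → Cm 4 → Matrix (Fin 4) (Fin 4) ℂ}
    (hχ : IsKahler χ) {k : ℕ} {M : Fin k → Bd Y} (hM : ∀ e, IsLB 4 (M e)) (hNef : ∀ e, Nef χ (M e))
    {m : Fin k → ℕ} (hm : ∀ e, 1 ≤ m e) {ρ : Fin k → ℝ} (hρ : ∀ e, 0 < ρ e)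
    (hρm : ∑ e, ρ e * m e = 1)
    {X : CSp} (hX : IsNormal 4 X) {O : Set Y} {v : Y → X.pt} (hv : IsOpenEmb X O v)
    (hO : DimLe X 2 (v '' O)ᶜ) {L : Fin k → Bd X.pt} (hL : ∀ e, IsLBx X (L e)) {Q : Fin k → ℕ}
    (hQ : ∀ e, 1 ≤ Q e)
    {T : ∀ e, (L e).ι → ((((Bd.can 4 Y).pow (m e)).mul (M e)).pow (Q e)).ι → Y → ℂ}
    (hT : ∀ e, IsIsoY O v (L e) ((((Bd.can 4 Y).pow (m e)).mul (M e)).pow (Q e)) (T e))
    {S : Set X.pt} (hSan : IsAn X univ S) (hSO : S ⊆ (v '' O)ᶜ) {Nc : Set X.pt}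
    (hNc : IsClosed Nc) (hSN : DimLe X 1 {x | x ∈ S ∧ ¬ IsReg 4 X x ∧ x ∈ Nc})
    (hlifts : ∀ (W : Set (Cm 4)) (w₀ : Cm 4) (φ : Cm 4 → X.pt), IsOpen W → w₀ ∈ W → w₀ 0 = 0 →
      (∀ w ∈ W, HolAt X φ w) → (∀ w ∈ W, w 0 = 0 → φ w ∈ S) → (∀ w ∈ W, φ w ∉ Nc) →
      W ⊆ closure {w | w ∈ W ∧ φ w ∈ v '' O} →
      ∃ w₁ ∈ W, w₁ 0 = 0 ∧ LiftV O v L M m Q T ρ φ w₁) :
    DimLe X 1 {x | x ∈ S ∧ ¬ IsReg 4 X x} := by
  have hS2 : DimLe X 2 S := hO.mono hSO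
  refine H371.sing_global hX hv hO hSan hS2 fun U₀ hU₀ hS1 => ?_
  by_cases hS1' : DimLe X 1 (S ∩ (U₀ ∩ Ncᶜ))
  · by_contra hcon
    push Not at hcon
    refine hS1 ((hS1'.union hSN).mono ?_)
    intro x hx
    by_cases hxN : x ∈ Nc
    · exact Or.inr ⟨hx.1, hcon x hx, hxN⟩
    · exact Or.inl ⟨hx.1, hx.2, hxN⟩
  obtain ⟨V', G, c, r, d, lam, θ, n, ζ, hVU, hg, hζ⟩ := TX.stMinLoc_final Y X hX O v hv
    hO S hSan (U₀ ∩ Ncᶜ) (hU₀.inter hNc.isOpen_compl) (fun x hx => hSO hx.1) hS1'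
  have hd : d = 1 := RC.sharpV hX hχ hM hNef hm hρ hρm hv hO hSan hS2 hL hQ hT hg hζ
    fun W w₀ φ hW hw₀ h0 hφ hS hcl hV =>
      hlifts W w₀ φ hW hw₀ h0 hφ hS (fun w hw => (hVU (hV w hw)).2) hcl
  subst hd
  have hc := hg.toIsCov
  obtain ⟨x, hxV, hxc⟩ := (hc.finite c (mem_ball_self hc.pos)).2
  have hxS : x ∈ S := (hg.memS x hxV).2 (by rw [hxc]; exact ⟨hg.c0, hg.c1⟩)
  obtain ⟨s, hs1, hs2⟩ := (H335.IsCov.toPre hc).sec_of_one (fun a ha b hb hab hθ => by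
    obtain ⟨y, hy⟩ := hc.enum (G a) (hc.maps a ha) hθ
    obtain ⟨k, hk⟩ := (hy.2 a).2 ⟨ha, rfl⟩
    obtain ⟨l, hl⟩ := (hy.2 b).2 ⟨hb, hab.symm⟩
    rw [← hk, ← hl, Subsingleton.elim k l]) ⟨x, hxV⟩ hζ
  exact ⟨x, ⟨hxS, (hVU hxV).1⟩, H371.isReg_of_sec hc.holo ⟨V', s, hc.isOpen, hxV, Subset.rfl,
    hc.openMap _ Subset.rfl hc.isOpen, fun y hy => ⟨hs2 y hy, (hs1 _ (hc.maps y hy)).2.2⟩⟩⟩

/-- the correspondence is the graph of `v j` on `O j` -/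
theorem cor_iff' {Y : Type} [TopologicalSpace Y] [ChartedSpace (Cm 4) Y] {k s : ℕ}
    {M : Fin (k + s) → Bd Y} {m : Fin (k + s) → ℕ}
    {ρ : Fin (k + s) → ℝ} {sg : ∀ i : Fin s, (M (Fin.natAdd k i)).ι → Y → ℂ} {W : CSp}
    {X Z : ℕ → CSp} {r : ℕ} {v₀ : Y → W.pt} {p₀ : W.pt → (X 0).pt} {G : Fin r → Set Y}
    {f : ∀ j, (X j).pt → (Z j).pt} {f' : ∀ j, (X (j + 1)).pt → (Z j).pt}
    {L : ∀ j, Fin (k + s) → Bd (X j).pt} {c : ℕ → Fin (k + s) → ℕ}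
    {σ : ∀ j, ∀ i : Fin s, (L j (Fin.natAdd k i)).ι → (X j).pt → ℂ}
    {t : ∀ e, (L 0 e).ι → (((Bd.can 4 Y).pow (m e)).mul (M e)).ι → Y → ℂ}
    {Bad : Set Y} {O : ℕ → Set Y} {v : ∀ j, Y → (X j).pt} {P Q : ℕ → Fin (k + s) → ℕ}
    {T : ∀ j e, (L j e).ι → (((Bd.can 4 Y).pow (m e)).mul (M e)).ι → Y → ℂ}
    (h : H884.G.TwSeqG ρ sg v₀ p₀ G f f' L c σ t Bad O v P Q T) (j : ℕ) (y : Y) (x : (X j).pt) :
    T3.Cor (⋃ l, G l) (fun y => p₀ (v₀ y)) f f' j y x ↔ y ∈ O j ∧ v j y = x := by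
  refine H884.G.cor_iff h.O0 h.v0 (fun j => ?_) (fun j y hy => ?_) (fun j x x' h1 h2 => ?_) j y x
  · obtain ⟨p, q, u, a, hf, d, b, -, -, -, -, hOj, hvj, -, -, -⟩ := h.step j
    exact hOj
  · obtain ⟨p, q, u, a, hf, d, b, -, -, -, -, hOj, hvj, -, -, -⟩ := h.step j
    rw [hvj]
    exact hf.small'.sec_eq _
  · obtain ⟨p, q, u, a, hf, d, b, -, -, -, -, hOj, hvj, -, -, -⟩ := h.step j
    exact hf.small'.inj _ _ h1 h2

/-- (REGG) -/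
theorem stRegG : T3.StRegG := by
  intro Y _ _ _ _ _ χ k s M m ρ H _ _ _ _ _ _ ι sg W X Z r v₀ p P G f f' A L c σ n t h I I' hI hI'
    hN j
  have hsum : ∑ e : Fin k, ρ (Fin.castAdd s e) * m (Fin.castAdd s e) = 1 := by
    have h1 := h.sum
    rw [Fin.sum_univ_add] at h1
    simpa only [h.m0, Nat.cast_zero, mul_zero, Finset.sum_const_zero, add_zero] using h1
  have hk : 1 ≤ k := by
    rcases Nat.eq_zero_or_pos k with rfl | h1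
    · simp at hsum
    · exact h1
  have hn : ∀ l, 0 ≤ ∑ e, ρ e * n e l / c 0 e ∨ G l ⊆ T3.bad ι G I I' := by
    intro l
    by_cases hl : l ∈ I
    · exact Or.inr fun y hy => Or.inl (mem_iUnion₂.2 ⟨l, hl, hy⟩)
    · exact Or.inl (hI l hl)
  have hbc : IsClosed (T3.bad ι G I I') := T3.isClosed_bad h.res.closed fun i => (h.bd i).sub.cont
  obtain ⟨O, v, P', Q', T, hT⟩ := H884.G.exists_twSeqG H884.stL0 (by omega) h.lb h.res h.c1 h.cmp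
    h.corr hn h.flip
  obtain ⟨pp, qq, s', a, hf, d, b, -, -, -, -, -, -, -, -, -⟩ := hT.step j
  have hTw := hT.tw j
  have hsub := hT.sub_compl j
  have hdn : ∀ i, range (ι i) ⊆ closure (range (ι i) ∩ O (j + 1)) := by
    intro i
    have hne : Nonempty Y := ⟨ι i (Classical.arbitrary (H i))⟩
    exact (hyp_dense h.res.emb h.res.hyp h.res.closed (isHyp_of_bd (h.lb _) (h.bd i))
      (isPreconnected_range (h.bd i).sub.cont)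
      (fun l hl => h.ne i (hl.trans (subset_iUnion G l)))
      (hTw.tw ⟨0, by omega⟩).emb.isOpen (hTw.tw ⟨0, by omega⟩).thin).2.1
  have hS : ∀ i : Fin s, SecRel (L (j + 1) (Fin.natAdd k i))
      (((Bd.can 4 Y).pow (m (Fin.natAdd k i))).mul (M (Fin.natAdd k i))) (O (j + 1)) (v (j + 1))
      (P' (j + 1) (Fin.natAdd k i)) (Q' (j + 1) (Fin.natAdd k i)) (T (j + 1) (Fin.natAdd k i))
      (fun b y => sg i b.2 y) := by
    intro i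
    have h1 := (h.flip (j + 1)).sec i
    refine ⟨fun a x => σ (j + 1) i a x ^ P' (j + 1) (Fin.natAdd k i),
      ⟨fun a x hx ha => hol_pow (h1.holo a x hx ha) _, fun a b x hx ha hb => ?_⟩, ?_⟩
    · show σ (j + 1) i a x ^ P' (j + 1) (Fin.natAdd k i) = (L (j + 1) (Fin.natAdd k i)).g a b x ^
        P' (j + 1) (Fin.natAdd k i) * σ (j + 1) i b x ^ P' (j + 1) (Fin.natAdd k i)
      rw [h1.change a b x hx ha hb, mul_pow]
    · rintro y hy a ⟨ch, b⟩ ha ⟨hb1, hb2⟩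
      rw [mul_comm]
      exact hT.sec (j + 1) i y a ch b hy ha hb1 hb2
  have hlt : ∀ i : Fin s, ρ (Fin.natAdd k i) ≤ 1 ∨ range (ι i) ⊆ T3.bad ι G I I' := by
    intro i
    by_cases hi : i ∈ I'
    · exact Or.inr fun y hy => Or.inr (mem_iUnion₂.2 ⟨i, hi, hy⟩)
    · exact Or.inl (hI' i hi)
  refine regCoreG h.kahler (M := fun e => M (Fin.castAdd s e)) (fun e => h.lb _) h.nef
    (m := fun e => m (Fin.castAdd s e)) h.pos (ρ := fun e => ρ (Fin.castAdd s e))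
    (fun e => h.rho _) hsum
    hf.normal' (hTw.tw ⟨0, by omega⟩).emb (hTw.tw ⟨0, by omega⟩).dim
    (L := fun e => (L (j + 1) (Fin.castAdd s e)).pow (P' (j + 1) (Fin.castAdd s e)))
    (fun e => (hTw.tw _).lb) (Q := fun e => Q' (j + 1) (Fin.castAdd s e))
    (fun e => (hTw.tw _).hQ)
    (T := fun e => T (j + 1) (Fin.castAdd s e)) (fun e => (hTw.tw _).iso)
    (IsAn.preimage (fun x => hf.small'.holMap x) hf.small'.an) hsub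
    (H884.G.isClosed_tot _ hbc) (hN j) ?_
  intro B w₀ φ hB hw₀ h0 hφ hSc hN' hcl
  refine liftV_of_chainG (S := f' j ⁻¹' Amin (f j))
    (Nc := T3.Tot (T3.Cor (⋃ l, G l) (fun y => p (v₀ y)) f f' (j + 1)) (T3.bad ι G I I'))
    (N := T3.bad ι G I I')
    h.lb hTw.tw hTw.lb ?_ h.rho hlt h.bd h.disj hdn hS hsub hB hw₀ h0 hφ hSc hN' hcl
  intro W w₀ γ' i hW hw₀ h0 hγ hcl hi hSN
  obtain ⟨w₁, hw₁, hw₁0, W₁, γ₀, ch, cc, q, g1, g2, g3, g4, g5, g6, g7, -, g8⟩ :=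
    hTw.chain W w₀ γ' i hW hw₀ h0 hγ hcl hi
  have hb : ∀ w ∈ W₁, w 0 = 0 → γ₀ w ∉ T3.bad ι G I I' := fun w hw hw0 =>
    H884.G.notMem_of_tot (fun y hy => (cor_iff' hT (j + 1) y _).2 ⟨hy, rfl⟩)
      (subset_closure_of_open g1 g3 hcl) g5 g6 hw (g4 w hw).1 (hγ w (g3 hw)).1
      (hSN w (g3 hw) hw0).2
  exact ⟨w₁, hw₁, hw₁0, W₁, γ₀, ch, cc, q, g1, g2, g3, g4, g5, g6, g7,
    g8 (fun w hw hw0 => (hSN w hw hw0).1) (hb w₁ g2 hw₁0), hb⟩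

end Vale.Agent.P277.H335.KK
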