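import Vale.Agent.P277.H335.K.RegL
import Vale.Agent.P277.H371.G.T4K

/-!
# P277, (L): the final form
-/

open scoped Manifold ContDiff Topology
open Vale.Agent.P272.K Vale.Agent.P285.H281.FD Vale.Agent.P267.H175 Set Filter

noncomputable section

namespace Vale.Agent.P277.H335.KK

open Vale.Agent.P277 Vale.Agent.P277.T3 H615 H371.C

/-- (T4LF), from REGL and T4G. -/
theorem stT4LF_of (hR : StRegL) (hT : StT4G) : StT4LF := by
  intro Y _ _ _ _ _ χ hχ k s M hM hnef m hm hm0 ρ hρ hsum H _ _ _ _ _ _ ι sg hbd hdisj W X Z r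
    v p P G hres hne f f' A L c hc n hn hflip a ha h1 h2
  obtain ⟨L', c', σ, t, hc', hcmp, hcorr, hcc, hfl⟩ :=
    H371.G.wrap_core (ι := ι) hM hm0 hbd hres hc hn hflip
  have h : IsPG χ M m ρ ι sg v p P G f f' A L' c' σ n t :=
    ⟨hχ, hM, hnef, hm, hm0, hρ, hsum, hbd, hdisj, hres, hne, hc', hcmp, hcorr, hfl⟩
  have ha' : ∀ l, a l = ∑ e, ρ e * n e l / c' 0 e := by
    intro l
    simp only [hcc]
    exact ha l
  refine hT Y χ k s M m ρ H ι sg W X Z r v p P G f f' A L' c' σ n t h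
    {l | a l < 0} {i | 1 ≤ ρ (Fin.natAdd k i)} (fun l hl => ?_) (fun i hi => not_le.1 hi) ?_ h2
  · rw [← ha']; exact not_lt.1 hl
  refine hR Y χ k s M m ρ H ι sg W X Z r v p P G f f' A L' c' σ n t h
    {l | a l < -1} {l | -1 ≤ a l ∧ a l < 0} {i | 1 < ρ (Fin.natAdd k i)}
    (fun l hl hlK => ?_) (fun i hi => not_lt.1 hi) (fun l hl => ?_) h1
  · rw [← ha']
    by_contra h3
    exact hlK ⟨not_lt.1 hl, not_le.1 h3⟩
  · rw [← ha']; exact hl.1

/-- (T4LF) -/
theorem stT4LF : StT4LF := stT4LF_of stRegL H371.G.stT4G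

end Vale.Agent.P277.H335.KK
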